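import Vale.Agent.P352Y.WL.Lau
import Vale.Agent.P352X.R.TWO.Mu
import Vale.Agent.P352X.R.LIE
import Vale.Agent.P352X.Api1C
import Vale.Agent.P352X.Api3

/-!
# P352Y, weight lemma: homogeneous distributions and their growth under the boosts
-/

noncomputable section

open MeasureTheory Filter Topology Complex Set
open scoped Real SchwartzMap ENNReal

namespace Vale.Agent.P352Y.Wl

open Vale.Agent.P352 Vale.Agent.P352.GF Vale.Agent.P352.BW Vale.Agent.P352X Two
open UniformSpace (Completion)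

/-- pull back of test functions -/
def pb {A : V → V} {l : ℝ} (h : Conf A l) : Sch →L[ℂ] Sch :=
  SchwartzMap.compCLMOfContinuousLinearEquiv ℂ h.cle

@[simp] lemma pb_apply {A : V → V} {l : ℝ} (h : Conf A l) (f : Sch) (x : V) :
    pb h f x = f (A x) := rfl

/-- the boosts on test functions -/
def bS (t : ℝ) : Sch →L[ℂ] Sch := pb (conf_scp (Real.exp_pos t) (Real.exp_pos (-t)))

lemma bS_apply (t : ℝ) (f : Sch) (x : V) : bS t f x = f (scp (rexp t) (rexp (-t)) x) := rfl

lemma ee (t : ℝ) : rexp t * rexp (-t) = 1 := by rw [← Real.exp_add, add_neg_cancel, Real.exp_zero]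

lemma ft_bS (t : ℝ) (f : Sch) (p : V) :
    ft (ev (bS t f)) p = ft (ev f) (scp (rexp t) (rexp (-t)) p) := by
  have := ft_conf (conf_scp (Real.exp_pos t) (Real.exp_pos (-t))) (p := p)
    (q := scp (rexp t) (rexp (-t)) p) (fun z => by rw [md_scp _ _ (ee t ▸ zero_le_one), ee, one_mul])
    (ev f)
  rwa [ee, one_pow, inv_one, ofReal_one, one_mul] at this

lemma cont_bS (f : Sch) : Continuous fun t => bS t f := continuous_iff_continuousAt.2 fun t =>
  Lie.cont (g := fun t => scpL (rexp t) (rexp (-t))) (a := fun _ => 0) (a0 := 0)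
    (g0 := (conf_scp (Real.exp_pos t) (Real.exp_pos (-t))).cle)
    (Continuous.tendsto' (continuous_clm_apply.2 fun y => by
      simp only [scpL_apply, scp]
      fun_prop) t _ (ContinuousLinearMap.ext fun _ => rfl))
    tendsto_const_nhds (.of_forall fun _ _ => by rw [add_zero]; rfl) fun _ => by rw [add_zero]; rfl

/-- integrals for homogeneous measures -/
lemma dyadic {ρ : Measure V} {e : ℕ} {A : Set V} (hA : MeasurableSet A)
    (h : ∀ s : ℝ, 0 < s → ρ ((fun p => s⁻¹ • p) ⁻¹' A) = ENNReal.ofReal (s ^ e) * ρ A)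
    {F : V → ℝ≥0∞} {C l : ℝ} (hC : 0 ≤ C) (hl : 0 < l)
    (hF : ∀ p, ∃ k : ℕ, (2 ^ k * l)⁻¹ • p ∈ A ∧ F p ≤ ENNReal.ofReal (C / (2 ^ k) ^ (e + 1))) :
    ∫⁻ p, F p ∂ρ ≤ ENNReal.ofReal (C * l ^ e) * ρ A * 2 := by
  have m : ∀ s : ℝ, MeasurableSet ((fun p : V => s • p) ⁻¹' A) := fun s =>
    (measurable_const_smul s) hA
  calc _ ≤ ∫⁻ p, ∑' k : ℕ, ((fun p : V => ((2 : ℝ) ^ k * l)⁻¹ • p) ⁻¹' A).indicator
        (fun _ => ENNReal.ofReal (C / (2 ^ k) ^ (e + 1))) p ∂ρ := lintegral_mono fun p => by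
        obtain ⟨k, h1, h2⟩ := hF p
        refine le_trans ?_ (ENNReal.le_tsum k)
        rwa [indicator_of_mem (mem_preimage.2 h1)]
    _ = ∑' k : ℕ, ENNReal.ofReal (C * l ^ e) * ρ A * 2⁻¹ ^ k := by
        rw [lintegral_tsum fun k => (measurable_const.indicator (m _)).aemeasurable]
        refine tsum_congr fun k => ?_
        rw [lintegral_indicator_const (m _), h _ (by positivity), ← mul_assoc, mul_right_comm _ (ρ A),
          ← ENNReal.ofReal_mul (by positivity), ← ENNReal.ofReal_ofNat 2,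
          ← ENNReal.ofReal_inv_of_pos two_pos, ← ENNReal.ofReal_pow (by positivity),
          ← ENNReal.ofReal_mul (by positivity)]
        congr 2
        rw [mul_pow, pow_succ, inv_pow]
        field_simp
    _ = _ := by rw [ENNReal.tsum_mul_left, ENNReal.tsum_geometric, ENNReal.one_sub_inv_two, inv_inv]

/-- thin boxes -/
def bx (ε : ℝ) : Set V := {u | |al u| ≤ 4 ∧ |be u| ≤ 4 ∧ ‖tx u‖ ≤ ε}

lemma closed_bx (ε : ℝ) : IsClosed (bx ε) :=
  (isClosed_le cont_al.abs continuous_const).inter ((isClosed_le cont_be.abs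
    continuous_const).inter (isClosed_le cont_tx.norm continuous_const))

lemma cpt_bx (ε : ℝ) : IsCompact (bx ε) :=
  (isCompact_closedBall 0 (8 + ε)).of_isClosed_subset (closed_bx ε) fun u h => by
    have := norm_pt_le (tx u) (al u) (be u)
    rw [Br.pt_self] at this
    exact mem_closedBall_zero_iff.2 (by linarith [h.1, h.2.1, h.2.2])

lemma mem_bx {t R : ℝ} {p : V} (hR : 0 < R) (h : ‖scp (rexp t) (rexp (-t)) p‖ ≤ 2 * R) :
    (R * rexp |t|)⁻¹ • p ∈ bx (2 * rexp (-|t|)) := by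
  have h1 := (abs_al_le _).trans h
  have h2 := (abs_be_le _).trans (mul_le_mul_of_nonneg_left h zero_le_two)
  have h3 := (norm_tx_le _).trans h
  rw [al_scp, abs_mul, Real.abs_exp] at h1
  rw [be_scp, abs_mul, Real.abs_exp] at h2
  rw [tx_scp, ee, Real.sqrt_one, one_smul] at h3
  have k : ∀ {s x : ℝ}, |s| = |t| → 0 ≤ x → rexp s * x ≤ 4 * R → (R * rexp |t|)⁻¹ * x ≤ 4 :=
    fun {s x} e x0 k => by
      rw [inv_mul_le_iff₀ (by positivity), ← e]
      have := mul_le_mul k (Real.exp_le_exp.2 (neg_le_abs s)) (Real.exp_nonneg _) (by positivity)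
      rw [mul_right_comm, ee] at this
      linarith
  have p0 : 0 < (R * rexp |t|)⁻¹ := by positivity
  refine ⟨?_, ?_, ?_⟩
  · rw [al_smul, abs_mul, abs_of_pos p0]
    exact k rfl (abs_nonneg _) (by linarith)
  · rw [be_smul, abs_mul, abs_of_pos p0]
    exact k (abs_neg t) (abs_nonneg _) (by linarith)
  · rw [tx_smul, norm_smul, Real.norm_of_nonneg p0.le, inv_mul_le_iff₀ (by positivity),
      mul_mul_mul_comm, ee]
    linarith

variable {D : Type*} [NormedAddCommGroup D] [InnerProductSpace ℂ D] {c : Ctx D} {d : ℕ}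
  {om : Sch →L[ℂ] Completion D}

/-- translation covariant distributions of dimension `d`, orthogonal to the vacuum -/
structure Hom (c : Ctx D) (d : ℝ) (om : Sch →L[ℂ] Completion D) : Prop where
  tr : ∀ y f, om (ST.tsl y f) = Ut c.Q y (om f)
  sc : ∀ s (f g : Sch), 0 < s → (∀ x, g x = f (s • x)) →
    om f = ((s ^ (4 - d) : ℝ) : ℂ) • Ug c.Q s GF.one 0 (om g)
  perp : ∀ f, inner ℂ c.Om (om f) = 0

lemma Hom.rel {d : ℝ} (h : Hom c d om) (f g : Sch) :
    c.bt.Phi (ft (ev g)) (om f) = c.bt.Phi (ft (ev f)) (om g) :=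
  rel_clm om (fun y _ => h.tr y f) fun y _ => h.tr y g

lemma sim_dil (s : ℝ) (y : V) : sim s GF.one 0 y = s • y := by rw [sim_smul, sim_ut, add_zero]

lemma Hom.hom (h : Hom c d om) {A : Set V} (hA : MeasurableSet A) {s : ℝ} (hs : 0 < s) :
    rho c (om gS) ((fun p => s⁻¹ • p) ⁻¹' A) = ENNReal.ofReal (s ^ (2 * d)) * rho c (om gS) A := by
  have i := inv_pos.2 hs
  have e := h.sc s⁻¹ gS (pb (conf_smul i.ne') gS) i fun _ => rfl
  have := rho_map ((grp_row c).uni s⁻¹ GF.one 0) (conf_smul i.ne') (t := (s⁻¹ ^ (4 - d : ℝ))⁻¹)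
    (by positivity) (measurable_const_smul s⁻¹) (measurable_const_smul s)
    (fun y => sim_dil s⁻¹ y ▸ ug_ut i H496.isLor_one y) (fun p y => by rw [H755.md_smul, H755.md_smul_l])
    (fun p => inv_smul_smul₀ hs.ne' p) (fun p => smul_inv_smul₀ hs.ne' p)
    (h.rel (pb (conf_smul i.ne') gS) gS) (v' := om gS) (by
      rw [ofReal_inv, eq_inv_smul_iff₀ (ofReal_ne_zero.2 (by positivity)), ← e])
  rw [← Measure.map_apply (measurable_const_smul _) hA, this, Measure.smul_apply, smul_eq_mul,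
    Real.rpow_sub i, show (4 : ℝ) = (4 : ℕ) by norm_num, Real.rpow_natCast, Real.rpow_natCast]
  congr 2
  field_simp
  rw [one_div, inv_pow, pow_mul', ← mul_pow, inv_mul_cancel₀ (by positivity), one_pow]

/-- **growth under the boosts** -/
theorem Hom.gr (h : Hom c d om) (f : Sch) : Gr d fun t => Bo c.Q t (om (bS t f)) := by
  have g := grp_row c
  refine ⟨g.sc_cont (fun t => ⟨Real.exp_pos _, Real.exp_pos _⟩) (by fun_prop) (by fun_prop)
    (om.continuous.comp (cont_bS f)), ?_⟩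
  obtain ⟨m, C, C0, hC⟩ := ft_decay (d + 1)
  set ρ := rho c (om gS)
  have fin : ∀ ε, ρ (bx ε) ≠ ∞ := fun ε => (rho_fin _ univ _ (cpt_bx ε) (subset_univ _)).ne
  have l := tendsto_measure_biInter_gt (μ := ρ) (s := bx) (a := 0)
    (fun r _ => (closed_bx r).measurableSet.nullMeasurableSet)
    (fun i j _ k u hu => ⟨hu.1, hu.2.1, hu.2.2.trans k⟩) ⟨1, one_pos, fin 1⟩
  rw [measure_mono_null (μ := ρ) (t := {p | tx p = 0}) (fun u hu => norm_le_zero_iff.1
    (le_of_forall_pos_le_add fun ε hε => by simpa using (mem_iInter₂.1 hu ε hε).2.2))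
    (withDensity_absolutelyContinuous _ _ ((bas_thm c).ker _ (h.perp _)).2.2.1)] at l
  have l1 : Tendsto (fun t : ℝ => 2 * rexp (-|t|)) (cocompact ℝ) (𝓝[>] 0) :=
    tendsto_nhdsWithin_iff.2 ⟨((Real.tendsto_exp_neg_atTop_nhds_zero.comp
      (tendsto_norm_cocompact_atTop (E := ℝ))).const_mul 2).trans_eq (by rw [mul_zero]),
      .of_forall fun t => mul_pos two_pos (Real.exp_pos _)⟩
  have l2 := ((((ENNReal.tendsto_toReal ENNReal.zero_ne_top).comp (l.comp l1)).const_mul
    ((C * sn m f) ^ 2)).mul_const 2).sqrt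
  simp only [ENNReal.toReal_zero, mul_zero, zero_mul, Real.sqrt_zero] at l2
  refine squeeze_zero (fun t => by positivity) (fun t => Real.le_sqrt_of_sq_le ?_) l2
  have k := dyadic (closed_bx (2 * rexp (-|t|))).measurableSet
    (fun s hs => h.hom (closed_bx _).measurableSet hs) (F := sq2 (ft (ev (bS t f))))
    (sq_nonneg (C * sn m f)) (Real.exp_pos |t|) fun p => by
      set q := scp (rexp t) (rexp (-t)) p
      obtain ⟨k, k1, k2⟩ := exists_nat_pow_near (le_add_of_nonneg_right (norm_nonneg q))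
        (one_lt_two (α := ℝ))
      refine ⟨k, mem_bx (by positivity) (by linarith [pow_succ' (2 : ℝ) k]),
        ENNReal.ofReal_le_ofReal ?_⟩
      rw [ft_bS, le_div_iff₀' (by positivity)]
      refine le_trans ?_ (pow_le_pow_left₀ (by positivity) (hC f q) 2)
      rw [mul_pow, ← pow_mul (1 + ‖q‖)]
      exact mul_le_mul_of_nonneg_right ((pow_le_pow_right₀ (one_le_pow₀ one_le_two)
        (show 2 * d + 1 ≤ (d + 1) * 2 by omega)).trans (pow_le_pow_left₀ (by positivity) k1 _))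
        (sq_nonneg _)
  rw [← setLIntegral_univ, ← withDensity_apply _ .univ,
    ← nu_eq (bd_ft ⟨_, rfl⟩) (h.rel (bS t f) gS)] at k
  have k' := ENNReal.toReal_mono (ENNReal.mul_ne_top (ENNReal.mul_ne_top ENNReal.ofReal_ne_top
    (fin _)) ENNReal.ofNat_ne_top) k
  rw [ENNReal.toReal_mul, ENNReal.toReal_mul, ENNReal.toReal_ofReal (by positivity),
    ENNReal.toReal_ofNat, ← measureReal_def, c.bt.nu_univ] at k'
  rw [mul_pow, Bo, Usc, g.ug_norm, Real.exp_neg, inv_pow, inv_mul_le_iff₀ (by positivity),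
    Real.exp_nat_mul, ← pow_mul, mul_comm d]
  exact k'.trans_eq (by simp only [Function.comp_apply]; ring)

end Vale.Agent.P352Y.Wl

end
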