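import Mathlib.Analysis.Complex.Liouville
import Mathlib.Analysis.Complex.RemovableSingularity
import Mathlib.Analysis.SpecialFunctions.Complex.LogDeriv
import Mathlib.Analysis.SpecialFunctions.Gaussian.FourierTransform
import Mathlib.Analysis.Fourier.Inversion
import Mathlib.Analysis.Calculus.ParametricIntegral

/-!
# P352Y, weight lemma: periodic entire functions and the Gauss transform
-/

noncomputable section

open MeasureTheory Filter Topology Complex Set Asymptotics Finset
open scoped Real FourierTransform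

namespace Vale.Agent.P352Y.Wl

variable {E : Type*} [NormedAddCommGroup E] [NormedSpace ℂ E] [CompleteSpace E]

/-- entire functions of polynomial growth -/
theorem poly (k : ℕ) {h : ℂ → E} (hd : Differentiable ℂ h)
    (ho : h =o[cocompact ℂ] fun w => w ^ k) :
    ∃ c : ℕ → E, ∀ w, h w = ∑ j ∈ range k, w ^ j • c j := by
  induction k generalizing h with
  | zero =>
    refine ⟨0, fun w => hd.apply_eq_of_tendsto_cocompact w ?_⟩
    simpa only [pow_zero, isLittleO_one_iff, range_zero, sum_empty] using ho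
  | succ k ih =>
    have t : Tendsto (fun w : ℂ => ‖w‖) (cocompact ℂ) atTop := tendsto_norm_cocompact_atTop
    have h1 : (fun w => h w - h 0) =o[cocompact ℂ] fun w => w ^ (k + 1) :=
      ho.sub (isLittleO_const_left.2 (.inr (by
        simpa only [Function.comp_def, norm_pow] using (tendsto_pow_atTop k.succ_ne_zero).comp t)))
    have e : ∀ᶠ w in cocompact ℂ, w ≠ 0 := (t.eventually_gt_atTop 0).mono fun w hw => norm_pos_iff.1 hw
    obtain ⟨c, hc⟩ := ih (h := dslope h 0) (differentiableOn_univ.1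
      ((differentiableOn_dslope univ_mem).2 hd.differentiableOn))
      (((isBigO_refl (fun w : ℂ => w⁻¹) _).smul_isLittleO h1).congr'
        (e.mono fun w hw => by simp [dslope_of_ne _ hw, slope_def_module])
        (e.mono fun w hw => by simp [pow_succ', hw]))
    refine ⟨fun j => Nat.casesOn j (h 0) c, fun w => ?_⟩
    have := sub_smul_dslope h 0 w
    rw [sub_zero, hc, smul_sum] at this
    simp only [sum_range_succ', pow_zero, one_smul, pow_succ', mul_smul, this]
    exact (sub_add_cancel _ _).symm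

/-- periodic entire functions of exponential growth -/
theorem per (d : ℕ) {Φ : ℂ → E} (hd : Differentiable ℂ Φ) (hp : ∀ z, Φ (z + 2 * π * I) = Φ z)
    (ho : ∀ ε > 0, ∃ R, ∀ z : ℂ, R ≤ |z.re| → |z.im| ≤ π → ‖Φ z‖ ≤ ε * rexp (d * |z.re|)) :
    ∃ c : ℕ → E, c 0 = 0 ∧ ∀ z, Φ z = ∑ j ∈ range (2 * d), cexp ((j - d) * z) • c j := by
  have e : ∀ {a b}, cexp a = cexp b → Φ a = Φ b := fun h => by
    obtain ⟨n, rfl⟩ := exp_eq_exp_iff_exists_int.1 h
    exact Function.Periodic.int_mul (f := Φ) hp n _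
  set h : ℂ → E := Function.update (fun w => w ^ d • Φ (log w)) 0 0
  have h0 : h 0 = 0 := Function.update_self ..
  have h1 : ∀ w ≠ 0, h w = w ^ d • Φ (log w) := fun w hw => Function.update_of_ne hw ..
  have d1 : ∀ w ≠ 0, DifferentiableAt ℂ h w := fun w hw => by
    refine DifferentiableAt.congr_of_eventuallyEq (f := fun u => u ^ d • Φ (log (u / w) + log w))
      ((differentiableAt_id.pow d).smul ((hd _).comp w (((differentiableAt_id.div_const w).clog
        (by simp [hw])).add_const _))) ?_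
    filter_upwards [isOpen_ne.mem_nhds hw] with u hu
    rw [h1 u hu, e (b := log (u / w) + log w)]
    rw [Complex.exp_add, exp_log hu, exp_log hw, exp_log (div_ne_zero hu hw), div_mul_cancel₀ _ hw]
  have b : ∀ ε > 0, ∃ R, ∀ w ≠ 0, R ≤ |Real.log ‖w‖| →
      ‖h w‖ ≤ ε * (‖w‖ * rexp |Real.log ‖w‖|) ^ d := fun ε hε => by
    obtain ⟨R, hR⟩ := ho ε hε
    refine ⟨R, fun w hw k => ?_⟩
    have := hR (log w) (by rwa [log_re]) (by rw [log_im]; exact abs_arg_le_pi w)
    rw [log_re, Real.exp_nat_mul] at this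
    rw [h1 w hw, norm_smul, norm_pow, mul_pow, mul_left_comm]
    gcongr
  have c0 : ContinuousAt h 0 := by
    rw [← continuousWithinAt_compl_self, ContinuousWithinAt, h0, NormedAddGroup.tendsto_nhds_zero]
    intro ε hε
    obtain ⟨R, hR⟩ := b (ε / 2) (half_pos hε)
    have l := Real.tendsto_log_nhdsGT_zero.comp (tendsto_norm_nhdsNE_zero (E := ℂ))
    filter_upwards [self_mem_nhdsWithin, l.eventually_le_atBot 0, l.eventually_le_atBot (-R)]
      with w hw k1 k2
    have := hR w hw (le_abs.2 (.inr (le_neg.1 k2)))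
    rw [abs_of_nonpos (show Real.log ‖w‖ ≤ 0 from k1), Real.exp_neg, Real.exp_log (norm_pos_iff.2 hw),
      mul_inv_cancel₀ (norm_ne_zero_iff.2 hw), one_pow] at this
    linarith
  have d2 : Differentiable ℂ h := fun w => (eq_or_ne w 0).elim (fun k => k ▸
    (analyticAt_of_differentiable_on_punctured_nhds_of_continuousAt
      (eventually_nhdsWithin_of_forall d1) c0).differentiableAt) (d1 w)
  obtain ⟨c, hc⟩ := poly (2 * d) d2 (isLittleO_iff.2 fun ε hε => by
    obtain ⟨R, hR⟩ := b ε hε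
    have t := tendsto_norm_cocompact_atTop (E := ℂ)
    have l := Real.tendsto_log_atTop.comp t
    filter_upwards [t.eventually_gt_atTop 0, l.eventually_ge_atTop 0, l.eventually_ge_atTop R]
      with w hw k1 k2
    have := hR w (norm_pos_iff.1 hw) (le_abs.2 (.inl k2))
    rwa [abs_of_nonneg (show 0 ≤ Real.log ‖w‖ from k1), Real.exp_log hw, ← sq, ← pow_mul,
      ← norm_pow] at this)
  refine ⟨Function.update c 0 0, Function.update_self .., fun z => ?_⟩
  have k := hc (cexp z)
  rw [h1 _ (exp_ne_zero z), e (exp_log (exp_ne_zero z))] at k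
  rw [← inv_smul_smul₀ (pow_ne_zero d (exp_ne_zero z)) (Φ z), k, smul_sum]
  refine sum_congr rfl fun j hj => ?_
  rw [smul_smul, sub_mul, Complex.exp_sub, Complex.exp_nat_mul, Complex.exp_nat_mul, div_eq_inv_mul]
  rcases eq_or_ne j 0 with rfl | k
  · have := hc 0
    rw [h0, sum_eq_single_of_mem 0 hj fun j _ k => by simp [k]] at this
    simpa using this.symm
  · rw [Function.update_of_ne k]

/-- the Gauss kernel -/
def gz (z : ℂ) (s : ℝ) : ℂ := cexp (-(s - z) ^ 2)

/-- the Gauss transform -/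
def Gs (φ : ℝ → E) (z : ℂ) : E := ∫ s, gz z s • φ s

@[fun_prop] lemma cont_gz (z : ℂ) : Continuous (gz z) := by unfold gz; fun_prop

lemma norm_gz (z : ℂ) (s : ℝ) : ‖gz z s‖ = rexp (z.im ^ 2 - (s - z.re) ^ 2) := by
  rw [gz, norm_exp]
  simp [sq]

lemma gz_le {z : ℂ} {R : ℝ} (h : ‖z‖ ≤ R) (s : ℝ) :
    ‖gz z s‖ ≤ rexp (R ^ 2) * rexp (-s ^ 2 + 2 * R * |s|) := by
  rw [norm_gz, ← Real.exp_add, Real.exp_le_exp]
  have h1 := mul_le_mul_of_nonneg_left ((abs_re_le_norm z).trans h) (abs_nonneg s)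
  have h2 := pow_le_pow_left₀ (abs_nonneg _) ((abs_im_le_norm z).trans h) 2
  rw [← abs_mul] at h1
  nlinarith [le_abs_self (s * z.re), sq_abs z.im, sq_nonneg z.re]

lemma ig (A : ℝ) : Integrable fun u : ℝ => rexp (-u ^ 2 + A * |u|) :=
  ((integrable_exp_neg_mul_sq one_half_pos).const_mul (rexp (A ^ 2 / 2))).mono'
    (Continuous.aestronglyMeasurable (by fun_prop)) (.of_forall fun u => by
      rw [Real.norm_of_nonneg (Real.exp_nonneg _), ← Real.exp_add, Real.exp_le_exp]
      nlinarith [sq_nonneg (|u| - A), sq_abs u])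

lemma gz_mul (z n : ℂ) (s : ℝ) :
    gz z s * cexp (n * s) = cexp (-1 * s ^ 2 + (2 * z + n) * s + -z ^ 2) := by
  rw [gz, ← Complex.exp_add]
  ring_nf

lemma int_gz (z n : ℂ) : Integrable fun s : ℝ => gz z s * cexp (n * s) := by
  simpa only [gz_mul] using integrable_cexp_quadratic' (b := -1) (by simp) _ _

/-- the constants -/
def ga (n : ℂ) : ℂ := (π : ℂ) ^ (1 / 2 : ℂ) * cexp (n ^ 2 / 4)

lemma ga_ne (n : ℂ) : ga n ≠ 0 := by simp [ga, Real.pi_ne_zero]

lemma integral_gz (z n : ℂ) : ∫ s : ℝ, gz z s * cexp (n * s) = ga n * cexp (n * z) := by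
  simp only [gz_mul, integral_cexp_quadratic (b := -1) (by simp), ga, mul_assoc, ← Complex.exp_add]
  ring_nf

/-- continuous functions that grow more slowly than `exp (d |t|)` -/
structure Gr (d : ℕ) (φ : ℝ → E) : Prop where
  cont : Continuous φ
  lim : Tendsto (fun t => rexp (-(d * |t|)) * ‖φ t‖) (cocompact ℝ) (𝓝 0)

variable {d : ℕ} {φ φ' : ℝ → E}

omit [NormedSpace ℂ E] [CompleteSpace E] in
lemma Gr.bd (h : Gr d φ) :
    ∃ C, 0 ≤ C ∧ ∀ t, rexp (-(d * |t|)) * ‖φ t‖ ≤ C ∧ ‖φ t‖ ≤ C * rexp (d * |t|) := by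
  have := h.cont
  obtain ⟨C, hC⟩ := (h.lim.isCompact_insert_range_of_cocompact (by fun_prop)).bddAbove
  refine ⟨C, hC (mem_insert _ _), fun t => ?_⟩
  have k := hC (mem_insert_of_mem _ (mem_range_self t))
  exact ⟨k, by rwa [Real.exp_neg, inv_mul_le_iff₀' (Real.exp_pos _)] at k⟩

omit [CompleteSpace E] in
lemma Gr.int (h : Gr d φ) (z : ℂ) : Integrable fun s => gz z s • φ s := by
  obtain ⟨C, -, hC⟩ := h.bd
  refine ((ig (2 * ‖z‖ + d)).const_mul (rexp (‖z‖ ^ 2) * C)).mono'
    ((cont_gz z).smul h.cont).aestronglyMeasurable (.of_forall fun s => ?_)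
  refine (norm_smul_le _ _).trans ((mul_le_mul (gz_le le_rfl s) (hC s).2 (norm_nonneg _)
    (by positivity)).trans_eq ?_)
  rw [add_mul, ← add_assoc, Real.exp_add _ (d * _)]
  ring

omit [CompleteSpace E] in
lemma Gr.diff (h : Gr d φ) : Differentiable ℂ (Gs φ) := fun z => by
  obtain ⟨C, C0, hC⟩ := h.bd
  have c := h.cont
  set R := ‖z‖ + 1
  refine (hasDerivAt_integral_of_dominated_loc_of_deriv_le (Metric.ball_mem_nhds z one_pos)
    (F' := fun w s => (gz w s * (2 * (s - w))) • φ s) (.of_forall fun w => (h.int w).1) (h.int z)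
    (Continuous.aestronglyMeasurable (by fun_prop)) (.of_forall fun s w hw => ?_)
    ((ig (2 * R + d + 1)).const_mul (rexp (R ^ 2) * C * (2 * rexp R)))
    (.of_forall fun s w _ => HasDerivAt.smul_const ?_ _)).2.differentiableAt
  · have hw' : ‖w‖ ≤ R := (norm_le_norm_add_norm_sub' w z).trans (by
      simpa [R, dist_eq_norm] using (Metric.mem_ball.1 hw).le)
    have h1 : ‖2 * (s - w)‖ ≤ 2 * rexp (R + |s|) := by
      rw [norm_mul, Complex.norm_ofNat]
      have := norm_sub_le (s : ℂ) w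
      rw [norm_real, Real.norm_eq_abs] at this
      linarith [Real.add_one_le_exp (R + |s|)]
    refine (norm_smul_le _ _).trans ((mul_le_mul ((norm_mul_le _ _).trans (mul_le_mul (gz_le hw' s)
      h1 (norm_nonneg _) (by positivity))) (hC s).2 (norm_nonneg _) (by positivity)).trans_eq ?_)
    simp only [add_mul, one_mul, Real.exp_add]
    ring
  · exact (((hasDerivAt_id w).const_sub (s : ℂ)).pow 2).neg.cexp.congr_deriv (by simp [gz])

omit [CompleteSpace E] in
lemma Gr.small (h : Gr d φ) (ε : ℝ) (hε : 0 < ε) :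
    ∃ R, ∀ z : ℂ, R ≤ |z.re| → |z.im| ≤ π → ‖Gs φ z‖ ≤ ε * rexp (d * |z.re|) := by
  obtain ⟨C, -, hC⟩ := h.bd
  have c := h.cont
  set a : ℝ → ℝ := fun t => rexp (-(d * |t|)) * ‖φ t‖
  have ca : Continuous a := by fun_prop
  have a0 : ∀ t, 0 ≤ a t := fun t => by positivity
  have b : ∀ x u, ‖rexp (-u ^ 2 + d * |u|) * a (u + x)‖ ≤ rexp (-u ^ 2 + d * |u|) * C := fun x u => by
    rw [Real.norm_of_nonneg (mul_nonneg (Real.exp_nonneg _) (a0 _))]
    exact mul_le_mul_of_nonneg_left (hC _).1 (Real.exp_nonneg _)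
  have m : ∀ x, Continuous fun u : ℝ => rexp (-u ^ 2 + d * |u|) * a (u + x) := fun x => by fun_prop
  have l := tendsto_integral_filter_of_dominated_convergence (μ := volume) (l := atBot ⊔ atTop)
    (F := fun x u : ℝ => rexp (-u ^ 2 + d * |u|) * a (u + x)) (f := fun u => _ * 0) _
    (.of_forall fun x => (m x).aestronglyMeasurable) (.of_forall fun x => .of_forall (b x))
    ((ig d).mul_const C) (.of_forall fun u => (h.lim.comp (cocompact_eq_atBot_atTop (α := ℝ) ▸
      (tendsto_atBot_add_const_left _ u tendsto_id).sup_sup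
        (tendsto_atTop_add_const_left _ u tendsto_id))).const_mul _)
  simp only [mul_zero, integral_zero] at l
  obtain ⟨l1, l2⟩ := eventually_sup.1 (l.eventually (ge_mem_nhds (div_pos hε (Real.exp_pos (π ^ 2)))))
  obtain ⟨R1, h1⟩ := eventually_atBot.1 l1
  obtain ⟨R2, h2⟩ := eventually_atTop.1 l2
  refine ⟨max (-R1) R2, fun z k1 k2 => ?_⟩
  have k3 : ∫ u, rexp (-u ^ 2 + d * |u|) * a (u + z.re) ≤ ε / rexp (π ^ 2) :=
    (le_abs'.1 k1).elim (fun k => h1 _ (by linarith [le_max_left (-R1) R2]))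
      fun k => h2 _ ((le_max_right _ _).trans k)
  rw [le_div_iff₀' (Real.exp_pos _), ← integral_const_mul] at k3
  refine le_trans ?_ (mul_le_mul_of_nonneg_right k3 (Real.exp_nonneg _))
  rw [Gs, ← integral_add_right_eq_self _ z.re, ← integral_mul_const]
  refine norm_integral_le_of_norm_le (((((ig d).mul_const C).mono' (m _).aestronglyMeasurable
    (.of_forall (b _))).const_mul _).mul_const _) (.of_forall fun u => ?_)
  rw [norm_smul, norm_gz, add_sub_cancel_right, ← mul_assoc, ← mul_assoc, mul_right_comm,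
    ← Real.exp_add, ← Real.exp_add, ← Real.exp_add]
  gcongr
  have h3 := mul_le_mul_of_nonneg_left (abs_add_le u z.re) (Nat.cast_nonneg d : (0 : ℝ) ≤ d)
  nlinarith [pow_le_pow_left₀ (abs_nonneg _) k2 2, sq_abs z.im]

/-- the Gauss transform is injective -/
lemma inj (c : Continuous φ) (c' : Continuous φ') (i : ∀ z, Integrable fun s => gz z s • φ s)
    (i' : ∀ z, Integrable fun s => gz z s • φ' s) (e : ∀ z, Gs φ z = Gs φ' z) : φ = φ' := by
  set f : ℝ → E := fun s => gz 0 s • (φ s - φ' s)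
  have f0 : 𝓕 f = 0 := funext fun w => by
    have h := sub_eq_zero.2 (e (-π * w * I))
    rw [Gs, Gs, ← integral_sub (i _) (i' _)] at h
    refine (smul_eq_zero.1 (Eq.trans ?_ h)).resolve_left (exp_ne_zero (π ^ 2 * w ^ 2))
    rw [Real.fourier_real_eq_integral_exp_smul, ← integral_smul]
    refine integral_congr_ae (.of_forall fun s => ?_)
    simp only [f, smul_smul, ← smul_sub, gz, ← Complex.exp_add]
    push_cast
    ring_nf
    simp
  have := Continuous.fourierInv_fourier_eq (f := f) (by fun_prop)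
    (((i 0).sub (i' 0)).congr (.of_forall fun s => (smul_sub _ _ _).symm)) (f0 ▸ integrable_zero _ _ _)
  funext s
  have h := congrFun this s
  rw [f0, Real.fourierInv_eq] at h
  simpa [f, gz, sub_eq_zero] using h.symm

lemma exps (h : Gr d φ) {c : ℕ → E} {n : ℕ → ℂ} {k : ℕ}
    (e : ∀ z, Gs φ z = ∑ j ∈ range k, cexp (n j * z) • c j) (t : ℝ) :
    φ t = ∑ j ∈ range k, cexp (n j * t) • (ga (n j))⁻¹ • c j := by
  have i := fun z j => (int_gz z (n j)).smul_const ((ga (n j))⁻¹ • c j)
  refine congrFun (inj (φ' := fun t => ∑ j ∈ range k, cexp (n j * t) • (ga (n j))⁻¹ • c j) h.cont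
    (by fun_prop) h.int (fun z => ?_) fun z => ?_) t
  · simpa only [smul_sum, mul_smul] using integrable_finsetSum (range k) fun j _ => i z j
  · rw [e]
    simp only [Gs, smul_sum, ← mul_smul (gz _ _)]
    rw [integral_finsetSum _ fun j _ => i z j]
    refine sum_congr rfl fun j _ => ?_
    rw [integral_smul_const, integral_gz, mul_comm (ga _), mul_smul, smul_inv_smul₀ (ga_ne _)]

/-- **functions that are exchanged by the imaginary shift are sums of exponentials** -/
theorem gauss (h : Gr d φ) (h' : Gr d φ') (e : ∀ z, Gs φ (z + π * I) = Gs φ' z)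
    (e' : ∀ z, Gs φ' (z + π * I) = Gs φ z) : ∃ c : ℕ → E, c 0 = 0 ∧ ∀ t : ℝ,
      φ t = ∑ j ∈ range (2 * d), cexp ((j - d) * t) • c j ∧
      φ' t = ∑ j ∈ range (2 * d), ((-1) ^ (j + d) * cexp ((j - d) * t)) • c j := by
  obtain ⟨c, c0, hc⟩ := per d h.diff (fun z => by rw [← e' z, ← e]; ring_nf) h.small
  refine ⟨fun j => (ga (j - d))⁻¹ • c j, by simp [c0], fun t => ⟨exps h hc t, ?_⟩⟩
  rw [exps h' (c := fun j => (-1 : ℂ) ^ (j + d) • c j) (n := fun j => j - d) (k := 2 * d) fun z => ?_]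
  · exact sum_congr rfl fun j _ => by simp only [smul_smul]; congr 1; ring
  rw [← e, hc]
  refine sum_congr rfl fun j _ => ?_
  rw [mul_add, Complex.exp_add, sub_mul _ _ (π * I), Complex.exp_sub, Complex.exp_nat_mul,
    Complex.exp_nat_mul, exp_pi_mul_I, smul_smul, pow_add, div_eq_mul_inv, ← inv_pow, inv_neg_one]

end Vale.Agent.P352Y.Wl

end
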